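import Vale.Agent.P368.Advantage
import Vale.Agent.P368.Tight3

/-!
# P368: no fixed worst-case advantage for parity at entangling depth two, with the sharp rate
-/

namespace Vale.Agent.Results.P368.DepthTwoAdvantage

open Vale.Agent.P368

/-- Circuits are lists of layers of one-qubit unitaries and generalized Toffoli gates on `n` inputs
and `a` ancillas; `n`, `a`, the number of gates and the number of layers are arbitrary.
(1) The two outcome probabilities of the measured qubit are nonnegative and add up to one.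
(2) At most two layers with a multiqubit gate: parity correlation at most `162 * 2 ^ (-n/2)`.
(3) At most two such layers: a worst-case advantage `ε` satisfies `ε ≤ 81 * 2 ^ (-n/2)`.
(4) Hence for every fixed `ε > 0` and all large `n` every such circuit is correct with probability
less than `1/2 + ε` on some input.
(5) For every even `n = k + k ≥ 2` some such circuit with one ancilla has parity correlation exactly
`2 * 2 ^ (-n/2)` in absolute value. -/
theorem result :
    (∀ (n a : ℕ) (c : List (List (Gate (Fin n ⊕ Fin a)))) (q : Fin n ⊕ Fin a)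
      (x : Fin n → Bool) (β : Bool), (∀ L ∈ c, LayerValid L) →
      0 ≤ prob c x q β ∧ prob c x q β + prob c x q (!β) = 1) ∧
    (∀ (n a : ℕ) (c : List (List (Gate (Fin n ⊕ Fin a)))) (q : Fin n ⊕ Fin a),
      (∀ L ∈ c, LayerValid L) → entDepth c ≤ 2 →
      |correlation c q| ≤ 162 * (2 : ℝ) ^ (-(n : ℝ) / 2)) ∧
    (∀ (n a : ℕ) (c : List (List (Gate (Fin n ⊕ Fin a)))) (q : Fin n ⊕ Fin a) (ε : ℝ),
      (∀ L ∈ c, LayerValid L) → entDepth c ≤ 2 →
      (∀ x : Fin n → Bool, 1 / 2 + ε ≤ prob c x q (parity x)) →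
      ε ≤ 81 * (2 : ℝ) ^ (-(n : ℝ) / 2)) ∧
    (∀ ε : ℝ, 0 < ε → ∃ n0 : ℕ,
      ∀ (n a : ℕ) (c : List (List (Gate (Fin n ⊕ Fin a)))) (q : Fin n ⊕ Fin a), n0 ≤ n →
      (∀ L ∈ c, LayerValid L) → entDepth c ≤ 2 →
      ∃ x : Fin n → Bool, prob c x q (parity x) < 1 / 2 + ε) ∧
    (∀ k : ℕ, 1 ≤ k →
      ∃ (c : List (List (Gate (Fin (k + k) ⊕ Fin 1)))) (q : Fin (k + k) ⊕ Fin 1),
        (∀ L ∈ c, LayerValid L) ∧ entDepth c ≤ 2 ∧
        |correlation c q| = 2 * (2 : ℝ) ^ (-((k + k : ℕ) : ℝ) / 2)) := by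
  refine ⟨fun n a c q x β hc => ⟨prob_nonneg c x q β, prob_add_prob_not c hc x q β⟩,
    fun n a c q hc hd => depth_two_bound n a c q hc hd,
    fun n a c q ε hc hd h => depth_two_advantage c q hc hd ε h, ?_,
    fun k hk => ⟨tightCircuit k, Sum.inr 0, tight_valid k hk, tight_depth k,
      tight_correlation k hk⟩⟩
  intro ε hε
  obtain ⟨n0, hn0⟩ := exists_threshold ε hε
  refine ⟨n0, fun n a c q hn hc hd => ?_⟩
  by_contra hcon
  have hall : ∀ x : Fin n → Bool, 1 / 2 + ε ≤ prob c x q (parity x) := fun x =>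
    not_lt.mp fun hx => hcon ⟨x, hx⟩
  exact absurd (depth_two_advantage c q hc hd ε hall) (not_le.mpr (hn0 n hn))

end Vale.Agent.Results.P368.DepthTwoAdvantage
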