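import Vale.Agent.P368.Main

/-!
# P368: parity correlation at entangling depth two is at most `162 * 2 ^ (-n/2)`
-/

namespace Vale.Agent.Results.P368.DepthTwoExponential

open Vale.Agent.P368

/-- Every circuit of one-qubit unitaries and generalized Toffoli gates on `n` inputs and `a`
ancillas (both arbitrary, any number of gates and layers) with at most two layers containing a
multiqubit gate has parity correlation at most `162 * 2 ^ (-n/2)` in absolute value, whichever
qubit `q` is measured. -/
theorem result : ∀ (n a : ℕ) (c : List (List (Gate (Fin n ⊕ Fin a)))) (q : Fin n ⊕ Fin a),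
    (∀ L ∈ c, LayerValid L) → entDepth c ≤ 2 →
    |correlation c q| ≤ 162 * (2 : ℝ) ^ (-(n : ℝ) / 2) :=
  fun n a c q hc hd => depth_two_bound n a c q hc hd

end Vale.Agent.Results.P368.DepthTwoExponential
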