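import Vale.Agent.P368.Main
import Vale.Agent.P368.Tight3

/-!
# P368: the optimal parity correlation at entangling depth two is `2 ^ (-n/2)` up to a constant
-/

namespace Vale.Agent.Results.P368.DepthTwoTight

open Vale.Agent.P368

/-- Upper bound: every circuit with at most two layers containing a multiqubit gate (any number of
ancillas, gates and layers) has parity correlation at most `162 * 2 ^ (-n/2)` in absolute value.
Lower bound: for every even `n = k + k >= 2` some such circuit with one ancilla has parity
correlation exactly `2 * 2 ^ (-n/2)` in absolute value. -/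
theorem result :
    (∀ (n a : ℕ) (c : List (List (Gate (Fin n ⊕ Fin a)))) (q : Fin n ⊕ Fin a),
      (∀ L ∈ c, LayerValid L) → entDepth c ≤ 2 →
      |correlation c q| ≤ 162 * (2 : ℝ) ^ (-(n : ℝ) / 2)) ∧
    (∀ k : ℕ, 1 ≤ k →
      ∃ (c : List (List (Gate (Fin (k + k) ⊕ Fin 1)))) (q : Fin (k + k) ⊕ Fin 1),
        (∀ L ∈ c, LayerValid L) ∧ entDepth c ≤ 2 ∧
        |correlation c q| = 2 * (2 : ℝ) ^ (-((k + k : ℕ) : ℝ) / 2)) :=
  ⟨fun n a c q hc hd => depth_two_bound n a c q hc hd,
   fun k hk => ⟨tightCircuit k, Sum.inr 0, tight_valid k hk, tight_depth k,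
     tight_correlation k hk⟩⟩

end Vale.Agent.Results.P368.DepthTwoTight
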